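import Crest.Agent.X212.Rw54.Gen

/-! # Row 212, GL-RW (helper54): rows and shifts for the four kinds of walls -/

set_option autoImplicit false
set_option linter.unusedSectionVars false
noncomputable section
open scoped Manifold ContDiff Topology
open MeasureTheory Set Function Filter

namespace Crest.Agent.X212.Rw54
open An Sw Sw.En3 Gls64 Sw21
open M (Mf pm)
open Nd18 (Dp Jv)
open Real (smoothTransition)

variable {κ lam ν : Type} [Fintype κ] [Fintype lam] [Fintype ν] [DecidableEq ν]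
  {d : Dt κ lam ν} [Fintype d.𝓔] {Sl : Type} [Fintype Sl] {X X₁ X₂ : Mf 4}
  {nc nr n₁ r₁ n₂ r₂ : ℕ}
  {T T₁ T₂ : Type} [NormedAddCommGroup T] [NormedSpace ℝ T] [FiniteDimensional ℝ T]
  [NormedAddCommGroup T₁] [NormedSpace ℝ T₁] [FiniteDimensional ℝ T₁]
  [NormedAddCommGroup T₂] [NormedSpace ℝ T₂] [FiniteDimensional ℝ T₂]
  {s : StS d Sl X} {s₁ : StS d Sl X₁} {s₂ : StS d Sl X₂}
  {σ : Cel s nc nr T} {σ₁ : Cel s₁ n₁ r₁ T₁} {σ₂ : Cel s₂ n₂ r₂ T₂}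
  {p : Spl X X₁ X₂ nc n₁ n₂ d Sl T T₁ T₂} (hp : p.OK σ σ₁ σ₂)
  {K₁ : Nk (d.e p.ε) s₁.bg} {K₂ : Nk (d.e p.ε) s₂.bg}
  (k₁ : K₁ ∈ s₁.nk (p.ε, p.aL)) (k₂ : K₂ ∈ s₂.nk (p.ε, p.aR)) (i₁ : K₁.Inf true) (i₂ : K₂.Inf false)

local notation "𝓢" => sp p (ht K₁ true) (ht K₂ false)
local notation "𝓿" => En3.ψ (d.e p.ε) (L (σ₁.β (p.ε, p.aL) true))

/-- the neck of a splitting -/
def Nek {n : ℕ} {B : Bg X.I X.M κ lam ν n} (K₁ : Nk (d.e p.ε) s₁.bg) (K₂ : Nk (d.e p.ε) s₂.bg)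
    (δ : ℝ × ℝ) (K : Nk (d.e p.ε) B) : Prop :=
  K.p = K₁.p.map (· + δ.1) ∧ K.q = K₂.q.map (· + δ.2) ∧
    (∀ y t, t ∈ K₁.J → t + δ.1 ∈ K.J → p.φL δ (K₁.ψ (y, t)) = K.ψ (y, t + δ.1)) ∧
    ∀ y t, t ∈ K₂.J → t + δ.2 ∈ K.J → p.φR δ (K₂.ψ (y, t)) = K.ψ (y, t + δ.2)

theorem rank_aff (j : T₁ →ᴬ[ℝ] T) (h : Bijective j) : Module.finrank ℝ T₁ = Module.finrank ℝ T :=
  (LinearEquiv.ofBijective _ (j.toAffineMap.linear_bijective_iff.2 h)).finrank_eq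

theorem lim₁ {ι : Type} {l : Filter ι} {u : ι → (Fin 1 → ℝ) × (Fin r₂ → ℝ)} (h : Tendsto u l (𝓝 0)) :
    Tendsto (fun i => (u i).1 0) l (𝓝 0) :=
  (((continuous_apply 0).comp continuous_fst).tendsto 0).comp h

theorem lim₂ {ι : Type} {l : Filter ι} {u : ι → (Fin r₁ → ℝ) × (Fin 1 → ℝ)} (h : Tendsto u l (𝓝 0)) :
    Tendsto (fun i => (u i).2 0) l (𝓝 0) :=
  (((continuous_apply 0).comp continuous_snd).tendsto 0).comp h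

theorem lim0 {ι A : Type} [TopologicalSpace A] [Zero A] {l : Filter ι} {u : ι → A}
    (h : ∀ i, u i = 0) : Tendsto u l (𝓝 0) := tendsto_const_nhds.congr fun i => (h i).symm

theorem lim_div {ι : Type} {l : Filter ι} {u u' v : ι → ℝ} {D : ℝ} (hD : D ≠ 0)
    (h : Tendsto u l (𝓝 0)) (h' : Tendsto u' l (𝓝 0)) (e : ∀ i, u i - u' i = D * v i) :
    Tendsto v l (𝓝 0) := by
  simpa [e, hD] using (h.sub h').const_mul D⁻¹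

theorem mi_true {n : ℕ} {B : Bg X.I X.M κ lam ν n} {e : En3 κ lam ν} (K : Nk e B) (r : ℝ)
    (c : Cfg X.M κ ν) : mi K true r c = fun t =>
      smoothTransition (t - (K.p.getD (-3) + 3)) * (lv K c t - e.ψ r) := by
  funext t; simp [mi, Nk.β, pm]

theorem mi_false {n : ℕ} {B : Bg X.I X.M κ lam ν n} {e : En3 κ lam ν} (K : Nk e B) (r : ℝ)
    (c : Cfg X.M κ ν) : mi K false r c = fun t =>
      (1 - smoothTransition (t - (K.q.getD 4 - 4))) * (-1 * (lv K c t - e.ψ r)) := rfl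

variable (p K₁ K₂) in
/-- the conclusion of GL-SHIFT -/
def Shf (σ : Cel s nc nr T) (x : σ₁.Pnt) (z : σ₂.Pnt) : Prop :=
  ∀ (ι : Type) (l : Filter ι) (δ δ' : ι → ℝ × ℝ), Tendsto δ l (Sp.lg 𝓢) →
    Tendsto δ' l (Sp.lg 𝓢) → Tendsto (fun i => δ i - δ' i) l (𝓝 0) → ∀ k, 5 ≤ k →
    ∀ (y : ι → σ.Pnt) t₁ t₂, Sp.Nr 𝓢 k l δ' y t₁ t₂ x z → Sp.Nr 𝓢 k l δ y t₁ t₂ x z

include hp k₁ k₂

theorem nek_ev : ∃ l, ∀ δ ∈ p.Δ, l ≤ δ.2 - δ.1 → ∀ t₁ ∈ σ₁.Q, ∀ t₂ ∈ σ₂.Q, p.par t₁ t₂ δ ∈ σ.Q ∧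
    ∃ K ∈ (σ.P (p.par t₁ t₂ δ)).nk (p.ε, p.a), Nek K₁ K₂ δ K := by
  refine (hp.cut ∅).imp fun l h δ h1 h2 t₁ h3 t₂ h4 => ?_
  obtain ⟨h5, -, -, hL, hR⟩ := h δ h1 h2 t₁ h3 t₂ h4
  obtain ⟨K, a1, K', a2, -, a3, -, a4, -⟩ := hL.nk
  obtain ⟨K0, b1, K'', b2, -, b3, -, b4, -⟩ := hR.nk
  obtain rfl := Option.mem_unique a1 b1
  obtain ⟨L', c1, c2⟩ := hp.okL.en t₁ h3 (p.ε, p.aL) K₁ k₁
  obtain rfl := Option.mem_unique a2 c1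
  obtain ⟨L'', c3, c4⟩ := hp.okR.en t₂ h4 (p.ε, p.aR) K₂ k₂
  obtain rfl := Option.mem_unique b2 c3
  simp only [Nd18.Nk.J, Pb50.ng_p c2, Pb50.ng_q c2, Pb50.ng_ψ c2, if_true] at a3 a4
  simp only [Nd18.Nk.J, Pb50.ng_p c4, Pb50.ng_q c4, Pb50.ng_ψ c4, Bool.false_eq_true, if_false]
    at b3 b4
  exact ⟨h5, K, a1, a3, b3, a4, b4⟩

theorem nek_site {K : Nk (d.e p.ε) s.bg} (k : K ∈ s.nk (p.ε, p.a)) :
    ∀ᶠ δ in Sp.lg 𝓢, Nek K₁ K₂ δ K := by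
  obtain ⟨l, h⟩ := nek_ev hp k₁ k₂
  obtain ⟨t₁, h1⟩ := hp.okL.ne
  obtain ⟨t₂, h2⟩ := hp.okR.ne
  refine ev_lg (l / 4) fun δ a b => ?_
  obtain ⟨h3, K', h4, h5⟩ := h δ a (by dsimp only [sp] at b; linarith) t₁ h1 t₂ h2
  obtain ⟨K'', c1, c2⟩ := hp.ok.en _ h3 (p.ε, p.a) K k
  obtain rfl := Option.mem_unique h4 c1
  simpa only [Nek, Nd18.Nk.J, Pb50.ng_p c2, Pb50.ng_q c2, Pb50.ng_ψ c2] using h5

theorem site_of {b : Bool} (hb : if b then K₂.q = none else K₁.p = none)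
    (hΔ : ∀ l, ∃ δ ∈ p.Δ, l ≤ δ.2 - δ.1) : ∃ K ∈ s.nk (p.ε, p.a), K.Inf b := by
  obtain ⟨l, h⟩ := nek_ev hp k₁ k₂
  obtain ⟨t₁, h1⟩ := hp.okL.ne
  obtain ⟨t₂, h2⟩ := hp.okR.ne
  obtain ⟨δ, a, a'⟩ := hΔ l
  obtain ⟨h3, K', h4, h5⟩ := h δ a a' t₁ h1 t₂ h2
  have : K'.Inf b := by
    cases b
    · exact h5.1.trans (congrArg _ hb)
    · exact h5.2.1.trans (congrArg _ hb)
  obtain ⟨K, c1, c2⟩ := Pb50.inf_site hp.ok.toOK h3 h4 this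
  exact ⟨K, c1, (Pb50.ng_inf c2).1 this⟩

variable (F₁ : FlatStmt d Prod.fst X₁ n₁ r₁ T₁ (N := d.𝓔 × Sl))
  (F₂ : FlatStmt d Prod.fst X₂ n₂ r₂ T₂ (N := d.𝓔 × Sl))
include i₁ i₂ F₁ F₂

/-- the levels near the pair `(x, z)` -/
theorem lv_ev (x : σ₁.Pnt) (z : σ₂.Pnt) {K : Nk (d.e p.ε) s.bg} (k : K ∈ s.nk (p.ε, p.a)) :
    ∃ η > 0, ∃ a ≥ 0, (∀ y : σ₁.Pnt, σ₁.dk 5 y x ≤ η → Fl K₁ true a 𝓿 y.1.2) ∧
      (∀ y : σ₂.Pnt, σ₂.dk 5 y z ≤ η → Fl K₂ false a 𝓿 y.1.2) ∧ ∀ᶠ δ in Sp.lg 𝓢,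
      K.p = K₁.p.map (· + δ.1) ∧ K.q = K₂.q.map (· + δ.2) ∧
      ∀ (y : σ.Pnt) y₁ y₂, σ₁.dk 5 y₁ x ≤ η → σ₂.dk 5 y₂ z ≤ η →
        Sp.Agr 𝓢 δ (2 * Sp.Λ 𝓢 δ + 2) y y₁ y₂ → ∀ u ∈ Dp K.p K.q 1,
        lv K y.1.2 u = lv K₁ y₁.1.2 (u - δ.1) + lv K₂ y₂.1.2 (u - δ.2) - 𝓿 := by
  obtain ⟨η₁, e₁, a₁, h₁⟩ := F₁ s₁ σ₁ hp.okL (p.ε, p.aL) true K₁ k₁ i₁ x
  obtain ⟨η₂, e₂, a₂, h₂⟩ := F₂ s₂ σ₂ hp.okR (p.ε, p.aR) false K₂ k₂ i₂ z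
  have f₁ : ∀ y : σ₁.Pnt, σ₁.dk 5 y x ≤ min η₁ η₂ → Fl K₁ true (|a₁| + |a₂|) 𝓿 y.1.2 :=
    fun y hy t ht k => h₁ y (hy.trans (min_le_left _ _)) t ht
      (by linarith [le_abs_self a₁, abs_nonneg a₂])
  have f₂ : ∀ y : σ₂.Pnt, σ₂.dk 5 y z ≤ min η₁ η₂ → Fl K₂ false (|a₁| + |a₂|) 𝓿 y.1.2 :=
    fun y hy t ht k => hp.mid ▸ h₂ y (hy.trans (min_le_right _ _)) t ht
      (by linarith [le_abs_self a₂, abs_nonneg a₁])
  refine ⟨_, lt_min e₁ e₂, _, by positivity, f₁, f₂, ?_⟩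
  filter_upwards [nek_site hp k₁ k₂ k, (lg_iff.1 tendsto_id).1.eventually_gt_atTop
    ((abs (|a₁| + |a₂|) + |K₁.p.getD 0| + |K₂.q.getD 0|) / 2)] with δ h a
  exact ⟨h.1, h.2.1, fun y y₁ y₂ b₁ b₂ g => lv_split K i₁ i₂ h.1 h.2.1 h.2.2.1 h.2.2.2 g.2.1 g.2.2
    (f₁ _ b₁) (f₂ _ b₂) (by dsimp only [sp, id] at a; linarith)⟩

variable (hg : ∃ g : (d.e p.ε).Gen, g.OK) (A : MapStmt d Prod.fst X nc nr T (N := d.𝓔 × Sl))
  {x : σ₁.Pnt} {z : σ₂.Pnt} (hx : σ₁.R x.1.1 x.1.2 = 0) (hz : σ₂.R z.1.1 z.1.2 = 0)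
  (sh : Shf p K₁ K₂ σ x z)
include hg A hx hz sh

theorem rw_out (A₁ : MapStmt d Prod.fst X₁ n₁ r₁ T₁ (N := d.𝓔 × Sl)) (ho : p.o = some true)
    (h0 : nr = 0) (h1 : r₁ = 0) (hc : σ₂.Cen (p.ε, p.aR)) (hΔ : p.Δ = {δ | δ.1 = 0})
    (hj : Bijective fun t => p.j (t, 0, 0)) : ∃ (m : ℕ) (R : Rw κ ν X X₁ nr r₁ r₂ m T T₁),
      R.OK 𝓢 σ x z (σ.wf p.wl) ∧ R.Sh 𝓢 σ x z (σ.wf p.wl) := by
  subst h0 h1
  obtain ⟨rfl, -, hT, -, -, ⟨K', k', p₂, q₂⟩, hR⟩ := hc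
  obtain rfl := Option.mem_unique k₂ k'
  obtain ⟨K, k, iK⟩ := site_of hp k₁ k₂ (b := true) q₂ fun l => ⟨(0, l), by simp [hΔ], by simp⟩
  obtain ⟨η, hη, a, -, f₁, f₂, hv⟩ := lv_ev hp k₁ k₂ i₁ i₂ F₁ F₂ x z k
  have hD := sub_pos.2 (psi_lt hg (hp.ok.gd _ _ ⟨K, k, iK⟩) (hp.okL.gd _ _ ⟨K₁, k₁, i₁⟩) (hp.lvR ho))
  obtain ⟨D, eD⟩ : ∃ D, (d.e p.ε).ψ (L (σ₁.β (p.ε, p.aL) true)) -
    (d.e p.ε).ψ (L (σ.β (p.ε, p.a) true)) = D := ⟨_, rfl⟩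
  replace hD : 0 < D := eD ▸ hD
  set c := K₁.p.getD (-3) + 3 with hc
  set μ := s₁.mo σ₁.β (p.ε, p.aL) true x.1.2 with hμ
  rw [show σ.wf p.wl = fun _ c => 1 - Real.exp (-s.mo σ.β (p.ε, p.a) true c) by
    funext t c; rw [Cel.wf, Spl.wl, ho]; rfl]
  have ok : (mRw (fun _ c => s.mo σ.β (p.ε, p.a) true c)
      (fun _ c (_ : Fin 1) => -s₁.mo σ₁.β (p.ε, p.aL) true c) (.neg ℝ)
      (fun δ τ => (0, fun _ => lm τ - μ - D * (δ.2 - c))) univ).OK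
      (sp p (ht K₁ true) (ht K₂ false)) σ x z fun _ c => 1 - Real.exp (-s.mo σ.β (p.ε, p.a) true c) := by
    refine mRw_ok hp.ok ?_ ((A.mo s σ hp.ok.toOK hp.ok.gd).1 _ _ ⟨K, k, iK⟩) (fun _ => fn_comp
      ((A₁.mo s₁ σ₁ hp.okL.toOK hp.okL.gd).1 _ _ ⟨K₁, k₁, i₁⟩) contDiff_neg) hη ?_ ?_
    · rw [Module.finrank_zero_of_subsingleton (M := T₂), add_zero]
      exact rank_aff (p.j.comp (ContinuousLinearMap.inl ℝ T₁ (T₂ × ℝ)).toContinuousAffineMap) hj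
    · exact (Eventually.of_forall fun _ _ _ _ _ _ _ => Subsingleton.elim _ _).and
        ((flat_mo k₁ i₁ f₁ (B := {true}) (G := fun u _ => -u true) (by simpa) (fun _ _ e => by
          rw [e rfl]) fun _ _ => rfl).and (flat_mo k₂ i₂ f₂ (B := univ) (G := fun u _ =>
            u false - u true) (fun b _ => by cases b; exacts [p₂, q₂]) (fun _ _ e => by
              rw [e trivial, e trivial]) fun t c => funext (hR t c)))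
    filter_upwards [hv, (lg_iff.1 tendsto_id).1.eventually_ge_atTop ((a + c + 1) / 4),
      (lg_iff.1 tendsto_id).2] with δ h a1 a2 _ τ y y₁ y₂ b₁ b₂ g
    have a3 : δ.1 = 0 := by simpa [sp, hΔ] using a2
    have a4 : K.p = K₁.p := by simpa [a3] using h.1
    obtain ⟨c1, c2⟩ := cn_site F₂ hp.okR k₂ p₂ q₂ y₂
    have c3 := int_site F₁ hp.okL k₁ i₁ y₁
    rw [← hp.mid, hp.βR ⟨K, k, iK⟩] at c1 c2
    rw [mi_true] at c3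
    have c4 := mo_true (f := lv K y.1.2) (d := δ.2) c1 c3 (fun t ht => by
      rw [h.2.2 y y₁ y₂ b₁ b₂ g t ⟨fun b hb => ?_, by simp [show K.q = none from iK]⟩, a3, sub_zero]
      rw [← a4, Option.mem_def.1 hb, Option.getD_some] at ht; linarith) fun t ht =>
        f₂ _ b₂ _ (by simp [Nd18.Nk.J, Jv, p₂, q₂]) (by
          dsimp only [sp, id] at a1; simp only [pm]; norm_num; linarith)
    refine Prod.ext (Subsingleton.elim _ _) (funext fun j => ?_)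
    change -(s.mo σ.β (p.ε, p.a) true y.1.2 - lm τ) = σ₂.R y₂.1.1 y₂.1.2 j +
      -s₁.mo σ₁.β (p.ε, p.aL) true y₁.1.2 - -μ + (lm τ - μ - D * (δ.2 - c))
    rw [hR, c2, mo_site k, mo_site k₁, mo_eq, mo_eq, mi_true, mi_true, a4, c4, eD]; ring
  refine ⟨1, _, ok, ⟨fun τ => (0, c + (lm τ - μ) / D), lg_iff.2 ⟨?_, .of_forall fun _ => by
    simp [sp, hΔ]⟩, eventually_nhdsWithin_of_forall fun _ h => ⟨trivial, h⟩, ?_⟩,
    fun ι l δ y y₁ y₂ a b c e => sq_of ok hp.okL hp.okR hx hz a b c e (.of_forall fun _ =>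
      ⟨trivial, wf_lt _⟩), fun ι l δ δ' τ a b => sh ι l δ δ' a.lg b.lg ?_⟩
  · simpa [sp, sub_eq_add_neg] using (tendsto_atTop_add_const_left _ c ((tendsto_atTop_add_const_right _ (-μ)
      lm_lim).atTop_div_const hD)).atTop_div_const four_pos
  · refine lim0 fun τ => Prod.ext rfl (funext fun _ => ?_)
    change lm τ - μ - D * (c + (lm τ - μ) / D - c) = 0
    field_simp; ring
  · refine (tendsto_const_nhds.congr' ?_).prodMk_nhds (lim_div hD.ne' (lim₂ b.off) (lim₂ a.off)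
      fun i => by simp [mRw]; ring)
    filter_upwards [(lg_iff.1 a.lg).2, (lg_iff.1 b.lg).2] with i a b
    simp only [sp, hΔ, mem_ofPred_eq] at a b
    simp [a, b]

theorem rw_inn (A₂ : MapStmt d Prod.fst X₂ n₂ r₂ T₂ (N := d.𝓔 × Sl)) (ho : p.o = some false)
    (h0 : nr = 0) (h1 : r₂ = 0) (hc : σ₁.Cen (p.ε, p.aL)) (hΔ : p.Δ = {δ | δ.2 = 0})
    (hj : Bijective fun t => p.j (0, t, 0)) : ∃ (m : ℕ) (R : Rw κ ν X X₂ nr r₂ r₁ m T T₂),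
      R.OK (Sp.swap 𝓢) σ z x (σ.wf p.wl) ∧ R.Sh (Sp.swap 𝓢) σ z x (σ.wf p.wl) := by
  subst h0 h1
  obtain ⟨rfl, -, hT, -, -, ⟨K', k', p₁, q₁⟩, hR⟩ := hc
  obtain rfl := Option.mem_unique k₁ k'
  obtain ⟨K, k, iK⟩ := site_of hp k₁ k₂ (b := false) p₁ fun l => ⟨(-l, 0), by simp [hΔ], by simp⟩
  obtain ⟨η, hη, a, -, f₁, f₂, hv⟩ := lv_ev hp k₁ k₂ i₁ i₂ F₁ F₂ x z k
  have hD := sub_pos.2 (psi_lt hg (hp.okL.gd _ _ ⟨K₁, k₁, i₁⟩) (hp.ok.gd _ _ ⟨K, k, iK⟩)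
    (hp.lvL ⟨K, k, iK⟩ (.inl (by simp [ho]))))
  obtain ⟨D, eD⟩ : ∃ D, (d.e p.ε).ψ (L (σ.β (p.ε, p.a) false)) -
    (d.e p.ε).ψ (L (σ₁.β (p.ε, p.aL) true)) = D := ⟨_, rfl⟩
  replace hD : 0 < D := eD ▸ hD
  set c := K₂.q.getD 4 - 4 with hc
  set μ := s₂.mo σ₂.β (p.ε, p.aR) false z.1.2 with hμ
  rw [show σ.wf p.wl = fun _ c => 1 - Real.exp (-s.mo σ.β (p.ε, p.a) false c) by
    funext t c; rw [Cel.wf, Spl.wl, ho]; rfl]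
  have ok : (mRw (fun _ c => s.mo σ.β (p.ε, p.a) false c)
      (fun _ c (_ : Fin 1) => s₂.mo σ₂.β (p.ε, p.aR) false c) (.refl ℝ _)
      (fun δ τ => (0, fun _ => μ + D * (c - δ.1) - lm τ)) univ).OK
      (sp p (ht K₁ true) (ht K₂ false)).swap σ z x
      fun _ c => 1 - Real.exp (-s.mo σ.β (p.ε, p.a) false c) := by
    refine mRw_ok hp.ok ?_ ((A.mo s σ hp.ok.toOK hp.ok.gd).1 _ _ ⟨K, k, iK⟩) (fun _ =>
      (A₂.mo s₂ σ₂ hp.okR.toOK hp.okR.gd).1 _ _ ⟨K₂, k₂, i₂⟩) hη ?_ ?_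
    · rw [Module.finrank_zero_of_subsingleton (M := T₁), add_zero]
      exact rank_aff (p.j.comp (ContinuousLinearMap.inr ℝ T₁ (T₂ × ℝ) ∘L
        ContinuousLinearMap.inl ℝ T₂ ℝ).toContinuousAffineMap) hj
    · exact (Eventually.of_forall fun _ _ _ _ _ _ _ => Subsingleton.elim _ _).and
        ((flat_mo k₂ i₂ f₂ (B := {false}) (G := fun u _ => u false) (by simpa) (fun _ _ e => by
          rw [e rfl]) fun _ _ => rfl).and (flat_mo k₁ i₁ f₁ (B := univ) (G := fun u _ =>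
            u false - u true) (fun b _ => by cases b; exacts [p₁, q₁]) (fun _ _ e => by
              rw [e trivial, e trivial]) fun t c => funext (hR t c)))
    filter_upwards [hv, (lg_iff.1 tendsto_id).1.eventually_ge_atTop ((a - c) / 4),
      (lg_iff.1 tendsto_id).2] with δ h a1 a2 _ τ y y₂ y₁ b₂ b₁ g
    have a3 : δ.2 = 0 := by simpa [sp, Sp.swap, hΔ] using a2
    have a4 : K.q = K₂.q := by simpa [a3] using h.2.1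
    obtain ⟨c1, c2⟩ := cn_site F₁ hp.okL k₁ p₁ q₁ y₁
    have c3 := int_site F₂ hp.okR k₂ i₂ y₂
    rw [hp.βL ⟨K, k, iK⟩] at c1 c2
    rw [mi_false, ← hp.mid] at c3
    have c4 := mo_false (f := lv K y.1.2) (d := δ.1) c1 c3 (fun t ht => by
      rw [h.2.2 y y₁ y₂ b₁ b₂ (agr_unswap g) t ⟨by simp [show K.p = none from iK], fun b hb => ?_⟩,
        a3, sub_zero]
      rw [← a4, Option.mem_def.1 hb, Option.getD_some] at ht; linarith) fun t ht =>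
        f₁ _ b₁ _ (by simp [Nd18.Nk.J, Jv, p₁, q₁]) (by
          dsimp only [sp, Sp.swap, id] at a1; simp only [pm]; norm_num; linarith)
    refine Prod.ext (Subsingleton.elim _ _) (funext fun j => ?_)
    change s.mo σ.β (p.ε, p.a) false y.1.2 - lm τ = σ₁.R y₁.1.1 y₁.1.2 j +
      s₂.mo σ₂.β (p.ε, p.aR) false y₂.1.2 - μ + (μ + D * (c - δ.1) - lm τ)
    rw [hR, c2, mo_site k, mo_site k₂, mo_eq, mo_eq, mi_false, mi_false, a4,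
      ← hp.mid, c4, eD]; ring
  refine ⟨1, _, ok, ⟨fun τ => (c - (lm τ - μ) / D, 0), lg_iff.2 ⟨?_, .of_forall fun _ => by
    simp [sp, Sp.swap, hΔ]⟩, eventually_nhdsWithin_of_forall fun _ h => ⟨trivial, h⟩, ?_⟩,
    fun ι l δ y y₁ y₂ a b c e => sq_of ok hp.okR hp.okL hz hx a b c e (.of_forall fun _ =>
      ⟨trivial, wf_lt _⟩), fun ι l δ δ' τ a b k hk y t₂ t₁ h =>
        nr_swap (sh ι l δ δ' a.lg b.lg ?_ k hk y t₁ t₂ (nr_unswap h))⟩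
  · simpa [sp, Sp.swap, sub_eq_add_neg] using (tendsto_atTop_add_const_right _ (-c)
      ((tendsto_atTop_add_const_right _ (-μ) lm_lim).atTop_div_const hD)).atTop_div_const four_pos
  · refine lim0 fun τ => Prod.ext rfl (funext fun _ => ?_)
    change μ + D * (c - (c - (lm τ - μ) / D)) - lm τ = 0
    field_simp; ring
  · refine (lim_div hD.ne' (lim₂ b.off) (lim₂ a.off) fun i => by simp [mRw]; ring).prodMk_nhds
      (tendsto_const_nhds.congr' ?_)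
    filter_upwards [(lg_iff.1 a.lg).2, (lg_iff.1 b.lg).2] with i a b
    simp only [sp, Sp.swap, hΔ, mem_ofPred_eq] at a b
    simp [a, b]

/-- `(c, r) ↦ (c + r, -r)` -/
def lr : ((Fin 1 → ℝ) × (Fin 1 → ℝ)) →L[ℝ] ((Fin 1 → ℝ) × (Fin 1 → ℝ)) :=
  .prod (.fst ℝ _ _ + .snd ℝ _ _) (-.snd ℝ _ _)

theorem rw_cyl (ho : p.o = some true) (hc : σ.Cen (p.ε, p.a)) (hc₁ : σ₁.Cen (p.ε, p.aL))
    (hc₂ : σ₂.Cen (p.ε, p.aR)) (hΔ : p.Δ = univ) (F : FlatStmt d Prod.fst X nc nr T (N := d.𝓔 × Sl)) :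
    ∃ (m : ℕ) (R : Rw κ ν X X₁ nr r₁ r₂ m T T₁),
      R.OK 𝓢 σ x z (σ.wf p.wl) ∧ R.Sh 𝓢 σ x z (σ.wf p.wl) := by
  obtain ⟨rfl, -, hT, -, -, ⟨K, k, p₀, q₀⟩, hR⟩ := hc
  obtain ⟨rfl, -, hT₁, -, -, ⟨K', k', p₁, q₁⟩, hR₁⟩ := hc₁
  obtain rfl := Option.mem_unique k₁ k'
  obtain ⟨rfl, -, hT₂, -, -, ⟨K', k', p₂, q₂⟩, hR₂⟩ := hc₂
  obtain rfl := Option.mem_unique k₂ k'
  have iF : s.Inf (p.ε, p.a) false := ⟨K, k, p₀⟩
  have iT : s.Inf (p.ε, p.a) true := ⟨K, k, q₀⟩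
  obtain ⟨η, hη, a, a0, f₁, f₂, hv⟩ := lv_ev hp k₁ k₂ i₁ i₂ F₁ F₂ x z k
  have hD := sub_pos.2 (psi_lt hg (hp.okL.gd _ _ ⟨K₁, k₁, i₁⟩) (hp.ok.gd _ _ iF)
    (hp.lvL iF (.inr rfl)))
  have hE := sub_pos.2 (psi_lt hg (hp.ok.gd _ _ iT) (hp.okL.gd _ _ ⟨K₁, k₁, i₁⟩) (hp.lvR ho))
  obtain ⟨D, eD⟩ : ∃ D, (d.e p.ε).ψ (L (σ.β (p.ε, p.a) false)) -
    (d.e p.ε).ψ (L (σ₁.β (p.ε, p.aL) true)) = D := ⟨_, rfl⟩
  obtain ⟨E, eE⟩ : ∃ E, (d.e p.ε).ψ (L (σ₁.β (p.ε, p.aL) true)) -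
    (d.e p.ε).ψ (L (σ.β (p.ε, p.a) true)) = E := ⟨_, rfl⟩
  replace hD : 0 < D := eD ▸ hD
  replace hE : 0 < E := eE ▸ hE
  rw [show σ.wf p.wl = fun _ c => 1 - Real.exp (-s.mo σ.β (p.ε, p.a) true c) by
    funext t c; rw [Cel.wf, Spl.wl, ho]; rfl]
  have hv' : ∀ᶠ δ in (sp p (ht K₁ true) (ht K₂ false)).lg, ∀ (y : σ.Pnt) y₁ y₂,
      σ₁.dk 5 y₁ x ≤ η → σ₂.dk 5 y₂ z ≤ η → (sp p (ht K₁ true) (ht K₂ false)).Agr δ
        (2 * (sp p (ht K₁ true) (ht K₂ false)).Λ δ + 2) y y₁ y₂ → σ.R y.1.1 y.1.2 0 =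
        σ₁.R y₁.1.1 y₁.1.2 0 + σ₂.R y₂.1.1 y₂.1.2 0 - D * δ.1 - E * δ.2 ∧ (δ.1 ≤ -a → a + 1 ≤ δ.2 →
          s.mo σ.β (p.ε, p.a) true y.1.2 = E * δ.2 - σ₂.R y₂.1.1 y₂.1.2 0) :=
    hv.mono fun δ h y y₁ y₂ b₁ b₂ g => by
    have c0 := (cn_site F hp.ok k p₀ q₀ y).2
    obtain ⟨c1, c2⟩ := cn_site F₁ hp.okL k₁ p₁ q₁ y₁
    obtain ⟨c3, c4⟩ := cn_site F₂ hp.okR k₂ p₂ q₂ y₂
    have c5 := fun t => h.2.2 y y₁ y₂ b₁ b₂ g t ⟨by simp [p₀], by simp [q₀]⟩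
    rw [hR, hR₁, hR₂, c0, c2, c4]
    rw [hp.βL iF] at c1 ⊢
    rw [← hp.mid, hp.βR iT] at c3 ⊢
    refine ⟨by rw [cn_add c1 c3 c5, eD, eE], fun a1 a2 => ?_⟩
    rw [mo_site k, mo_eq, mi_true, p₀, mo_true (d := δ.2) c3
      (f₁ := fun _ => (d.e p.ε).ψ (L (σ₁.β (p.ε, p.aL) true))) (by simp) (fun t ht => ?_)
      fun t ht => f₂ _ b₂ _ (by simp [Nd18.Nk.J, Jv, p₂, q₂]) ?_, eE]
    · simp; ring
    · rw [c5, f₁ _ b₁ _ (by simp [Nd18.Nk.J, Jv, p₁, q₁]) ?_]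
      simp only [pm] at ht ⊢; norm_num at ht ⊢; linarith
    · simp only [pm] at ht ⊢; norm_num at ht ⊢; linarith
  have ok : (mRw (fun _ c => s.mo σ.β (p.ε, p.a) true c) (fun _ _ (_ : Fin 1) => (0 : ℝ))
      (.equivOfInverse lr lr (fun _ => by simp [lr]) fun _ => by simp [lr])
      (fun δ τ => (fun _ => -(D * δ.1) - lm τ, fun _ => lm τ - E * δ.2))
      {δ | δ.1 ≤ -a ∧ a + 1 ≤ δ.2}).OK (sp p (ht K₁ true) (ht K₂ false)) σ x z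
      fun _ c => 1 - Real.exp (-s.mo σ.β (p.ε, p.a) true c) := by
    refine mRw_ok hp.ok (by simp [Module.finrank_zero_of_subsingleton])
      ((A.mo s σ hp.ok.toOK hp.ok.gd).1 _ _ iT) (fun _ => fn_const 0) hη ?_
      (hv'.mono fun δ h a τ y y₁ y₂ b₁ b₂ g => ?_)
    · exact (flat_mo k₁ i₁ f₁ (B := univ) (G := fun u _ => u false - u true)
        (fun b _ => by cases b; exacts [p₁, q₁]) (fun _ _ e => by rw [e trivial, e trivial])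
        fun t c => funext (hR₁ t c)).and ((Eventually.of_forall fun _ _ _ _ _ _ _ => rfl).and
          (flat_mo k₂ i₂ f₂ (B := univ) (G := fun u _ => u false - u true)
            (fun b _ => by cases b; exacts [p₂, q₂]) (fun _ _ e => by rw [e trivial, e trivial])
            fun t c => funext (hR₂ t c)))
    · obtain ⟨h1, h2⟩ := h y y₁ y₂ b₁ b₂ g
      refine Prod.ext (funext fun j => ?_) (funext fun j => ?_) <;> rw [Subsingleton.elim j 0] <;>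
        simp [lr, h1, h2 a.1 a.2] <;> ring
  have l1 := lm_lim.atTop_div_const hD
  have l2 := lm_lim.atTop_div_const hE
  refine ⟨1, _, ok, ⟨fun τ => (-(lm τ / D), lm τ / E), lg_iff.2 ⟨?_, .of_forall fun _ => by
    simp [sp, hΔ]⟩, ?_, ?_⟩, fun ι l δ y y₁ y₂ a b c e => sq_of ok hp.okL hp.okR hx hz a b c e ?_,
      fun ι l δ δ' τ a b => sh ι l δ δ' a.lg b.lg ?_⟩
  · simpa [sp] using (l2.atTop_add_atTop l1).atTop_div_const four_pos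
  · filter_upwards [l1.eventually_ge_atTop a, l2.eventually_ge_atTop (a + 1), self_mem_nhdsWithin]
      with τ h1 h2 h3 using ⟨⟨neg_le_neg h1, h2⟩, h3⟩
  · refine lim0 fun τ => Prod.ext (funext fun _ => ?_)
      (funext fun _ => ?_)
    · change -(D * -(lm τ / D)) - lm τ = 0
      field_simp; ring
    · change lm τ - E * (lm τ / E) = 0
      field_simp; ring
  · rename_i r
    have h1 := (fn_lim hp.okL (hp.okL.R 0) b).add (fn_lim hp.okR (hp.okR.R 0) c)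
    rw [hx, hz, Pi.zero_apply, add_zero] at h1
    have h2 := (lg_iff.1 a).1
    filter_upwards [a.eventually hv', e, near_of b hη, near_of c hη,
      h1.eventually (Ioo_mem_nhds neg_one_lt_zero one_pos),
      h2.eventually_ge_atTop ((1 + (D + E) * r) / (4 * E)),
      h2.eventually_ge_atTop ((1 + (D + E) * (r + 1)) / (4 * D))] with i b1 b2 b3 b4 b5 b6 b7
    have b8 := (b1 _ _ _ b3 b4 b2.2).1
    rw [b2.1, Pi.zero_apply] at b8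
    rw [div_le_iff₀ (by positivity)] at b6 b7
    dsimp only [sp] at b6 b7
    refine ⟨⟨le_of_mul_le_mul_left ?_ (add_pos hD hE), le_of_mul_le_mul_left ?_ (add_pos hD hE)⟩,
      wf_lt _⟩ <;> linarith [b5.1, b5.2]
  · exact (lim_div hD.ne' (lim₁ b.off) (lim₁ a.off) fun i => by simp [mRw]; ring).prodMk_nhds
      (lim_div hE.ne' (lim₂ b.off) (lim₂ a.off) fun i => by simp [mRw]; ring)

omit i₁ i₂ F₁ F₂ hg hx hz sh

theorem rw_fin (ho : p.o = none) (hs : s.nk (p.ε, p.a) = none) (h0 : nr = 0) (h1 : r₁ = 0)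
    (h2 : r₂ = 0) (hj : Bijective p.j) (hΔ : ∀ l, ∃! δ, δ ∈ p.Δ ∧ δ.2 - δ.1 = l) :
    ∃ (m : ℕ) (R : Rw κ ν X X₁ nr r₁ r₂ m T T₁),
      R.OK 𝓢 σ x z (σ.wf p.wl) ∧ R.Sh 𝓢 σ x z (σ.wf p.wl) := by
  subst h0 h1 h2
  obtain ⟨l₀, h⟩ := nek_ev hp k₁ k₂
  set c := K₂.q.getD 0 - K₁.p.getD 0 - 2 with hc
  obtain ⟨-, m1, m2⟩ := A.mo s σ hp.ok.toOK hp.ok.gd
  obtain ⟨f, hf⟩ : ∃ f : T → ℝ, f = fun t => 1 - Real.exp (-((σ.P t).len (p.ε, p.a) - 2)) := ⟨_, rfl⟩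
  have sf : ContDiffOn ℝ ∞ f σ.Q := hf ▸ sm_wf.comp_contDiffOn ((m1 _ hs).sub contDiffOn_const)
  rw [show σ.wf p.wl = fun t _ => f t by funext t c; rw [Cel.wf, Spl.wl, ho, hf]; rfl]
  have hl : ∀ l, l₀ ≤ l → ∀ t₁ ∈ σ₁.Q, ∀ t₂ ∈ σ₂.Q, f (p.j (t₁, t₂, l)) = 1 - Real.exp (-(l + c)) :=
    fun l a t₁ a₁ t₂ a₂ => by
    obtain ⟨δ, ⟨b, rfl⟩, -⟩ := hΔ l
    obtain ⟨b1, K, b2, b3, b4, -⟩ := h δ b a t₁ a₁ t₂ a₂
    have : ∀ b, ¬K.Inf b := fun b k => by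
      obtain ⟨_, k, -⟩ := Pb50.inf_site hp.ok.toOK b1 b2 k
      simp [hs] at k
    obtain ⟨u, hu⟩ := Option.ne_none_iff_exists'.1 fun e : K₁.p = none => this false (by
      rw [e] at b3; exact b3)
    obtain ⟨v, hv⟩ := Option.ne_none_iff_exists'.1 fun e : K₂.q = none => this true (by
      rw [e] at b4; exact b4)
    rw [hf]
    change 1 - Real.exp (-((σ.P (p.par t₁ t₂ δ)).len (p.ε, p.a) - 2)) = _
    rw [Pz.len, Option.mem_def.1 b2, Option.elim_some, b3, b4, hc, hu, hv]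
    simp only [Option.map_some, Option.getD_some]
    congr 3; ring
  have hA : ∀ᶠ δ in (sp p (ht K₁ true) (ht K₂ false)).lg, l₀ < δ.2 - δ.1 :=
    ((lg_iff.1 tendsto_id).1.eventually_gt_atTop (l₀ / 4)).mono fun δ a => by
      dsimp only [sp, id] at a; linarith
  let R : Rw κ ν X X₁ 0 0 0 0 T T₁ := ⟨0, 0, .refl ℝ _, 0, {a | a.2 = 1 - Real.exp (-(a.1.2 - a.1.1 + c))}⟩
  have ok : R.OK (sp p (ht K₁ true) (ht K₂ false)) σ x z fun t _ => f t := by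
    refine ⟨?_, fun _ j => j.elim0, fun j => j.elim0, m2 f sf, ⟨1, one_pos, .of_forall fun _ =>
      ⟨fun _ _ _ _ _ _ => Subsingleton.elim _ _, fun _ _ _ _ _ _ => rfl, fun _ _ _ _ _ _ =>
        Subsingleton.elim _ _⟩, .of_forall fun _ _ _ _ _ _ _ _ _ => Subsingleton.elim _ _⟩,
      hA.mono fun δ a τ b y t₁ a₁ t₂ a₂ e => iff_of_true rfl ?_,
      fun k hk => hA.mono fun δ a τ _ q y t₁ a₁ t₂ a₂ e ho ⟨u, r⟩ => ?_⟩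
    · simpa [add_assoc] using rank_aff p.j hj
    · exact (congrArg f e).trans ((hl _ a.le t₁ a₁ t₂ a₂).trans b.symm)
    have d1 := ((sf.contDiffAt (hp.ok.opn.mem_nhds y.2.1)).differentiableAt (by simp)).hasFDerivAt
    have d2 : ∀ v, fderiv ℝ (σ.rr k fun t _ => f t) (σ.pt k y) v = fderiv ℝ f y.1.1 v.2.2 :=
      fun v => by
      rw [fderiv_rr hp.ok hk (F := fun v => f v.2.2) ⟨sf.comp (contDiff_snd.comp
        contDiff_snd).contDiffOn fun _ h => h, fun _ => rfl⟩]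
      exact DFunLike.congr_fun (HasFDerivAt.comp (σ.pt k y) (g := f)
        (f := fun v : σ.C k => v.2.2) d1 (hasFDerivAt_snd (𝕜 := ℝ)).snd).fderiv v
    have d3 : ∀ w, fderiv ℝ f y.1.1 (p.j.contLinear w) =
        Real.exp (-(δ.2 - δ.1 + c)) * w.2.2 := fun w => by
      have d4 := HasFDerivAt.comp (t₁, t₂, δ.2 - δ.1) (g := f) (f := p.j) (e ▸ d1) p.j.hasFDerivAt
      have d6 := (((hasDerivAt_id (δ.2 - δ.1)).add_const c).neg.exp.const_sub 1).comp_hasFDerivAt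
        (f := fun w : T₁ × T₂ × ℝ => w.2.2) (t₁, t₂, δ.2 - δ.1) (hasFDerivAt_snd (𝕜 := ℝ)).snd
      have d5 := d6.congr_of_eventuallyEq (f₁ := f ∘ p.j) (by
          filter_upwards [prod_mem_nhds (hp.okL.opn.mem_nhds a₁) (prod_mem_nhds
            (hp.okR.opn.mem_nhds a₂) (Ioi_mem_nhds a))] with w hw
          exact hl _ (le_of_lt hw.2.2) _ hw.1 _ hw.2.1)
      simpa [e] using DFunLike.congr_fun (d4.unique d5) w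
    let w : σ.C k := (0, 0, p.j.contLinear (0, 0, r / Real.exp (-(δ.2 - δ.1 + c))))
    obtain ⟨v, ⟨v', hv⟩, h1, -⟩ := ho (u - fderiv ℝ (σ.F k q) (σ.pt k y) w) 0
    refine ⟨v + w, Prod.ext ((map_add _ v w).trans (eq_sub_iff_add_eq.1 h1)) ?_⟩
    have : v.2.2 = p.j.contLinear (v'.1, v'.2, 0) := by
      rw [← hv, lin_eq, ← Prod.mk_zero_zero, sp_θ, sp_θ, Spl.par, Spl.par, ← vsub_eq_sub,
        ← p.j.contLinear_map_vsub]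
      simp
    change fderiv ℝ (σ.rr k fun t _ => f t) (σ.pt k y) (v + w) = r
    rw [map_add, d2, d2, this, d3, d3, mul_zero, zero_add, mul_div_cancel₀ _ (Real.exp_ne_zero _)]
  choose δ₀ h₀ u₀ using hΔ
  refine ⟨0, R, ok, ⟨fun τ => δ₀ (lm τ - c), lg_iff.2 ⟨?_, .of_forall fun _ => (h₀ _).1⟩,
    eventually_nhdsWithin_of_forall fun τ h => ?_, tendsto_const_nhds⟩,
    fun ι l δ y y₁ y₂ a b c e => ⟨a, ?_, tendsto_const_nhds⟩, fun ι l δ δ' τ a b k _ y t₁ t₂ =>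
      nr_congr ?_⟩
  · simp only [sp, (h₀ _).2]
    exact (tendsto_atTop_add_const_right _ (-c) lm_lim).atTop_div_const four_pos
  · change τ = 1 - Real.exp (-((δ₀ _).2 - (δ₀ _).1 + c))
    rw [(h₀ _).2, sub_add_cancel, (lm_iff h).1 (sub_self _)]
  · filter_upwards [a.eventually hA, e] with i b1 b2
    exact (congrArg f b2.2.1).trans (hl _ b1.le _ (y₁ i).2.1 _ (y₂ i).2.1)
  · filter_upwards [a.A, b.A, (lg_iff.1 a.lg).2, (lg_iff.1 b.lg).2] with i b1 b2 b3 b4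
    have := add_right_cancel (neg_injective (Real.exp_injective (sub_right_injective
      (b1.symm.trans b2))))
    exact (u₀ _ _ ⟨b4, this.symm⟩).trans (u₀ _ _ ⟨b3, rfl⟩).symm

omit hp k₁ k₂ A

/-- **GL-RW** -/
theorem rwStmt (A : MapStmt d Prod.fst X nc nr T (N := d.𝓔 × Sl))
    (A₁ : MapStmt d Prod.fst X₁ n₁ r₁ T₁ (N := d.𝓔 × Sl))
    (A₂ : MapStmt d Prod.fst X₂ n₂ r₂ T₂ (N := d.𝓔 × Sl))
    (F : FlatStmt d Prod.fst X nc nr T (N := d.𝓔 × Sl))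
    (F₁ : FlatStmt d Prod.fst X₁ n₁ r₁ T₁ (N := d.𝓔 × Sl))
    (F₂ : FlatStmt d Prod.fst X₂ n₂ r₂ T₂ (N := d.𝓔 × Sl))
    (H : ShiftStmt d X X₁ X₂ nc nr n₁ r₁ n₂ r₂ T T₁ T₂ Sl) :
    RwStmt d X X₁ X₂ nc nr n₁ r₁ n₂ r₂ T T₁ T₂ Sl := by
  intro s s₁ s₂ σ σ₁ σ₂ p hg hp K₁ k₁ K₂ k₂ i₁ i₂ x z hx hz
  have sh := fun h => H s s₁ s₂ σ σ₁ σ₂ p hg hp K₁ k₁ K₂ k₂ i₁ i₂ h x z
  rcases hp.kind with ⟨a, b, c, e, f, g, h, -⟩ | ⟨a, b, c, e, f, -, g, -⟩ | ⟨a, b, c, e, f, -, g, -⟩ |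
    ⟨a, b, c, e, f⟩
  · exact .inl (rw_fin hp k₁ k₂ A a b c e f g h)
  · exact .inl (rw_out hp k₁ k₂ i₁ i₂ F₁ F₂ (hg _) A hx hz (sh (by simp [a])) A₁ a b c e f g)
  · exact .inr (rw_inn hp k₁ k₂ i₁ i₂ F₁ F₂ (hg _) A hx hz (sh (by simp [a])) A₂ a b c e f g)
  · exact .inl (rw_cyl hp k₁ k₂ i₁ i₂ F₁ F₂ (hg _) A hx hz (sh (by simp [a])) a b c e f F)

end Crest.Agent.X212.Rw54
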