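import Crest.Agent.X212.Gls64.Defs

/-! # Row 212, GL-RW (helper54): the leaf GL-SHIFT -/

set_option autoImplicit false
set_option linter.unusedSectionVars false
noncomputable section
open scoped Topology
open Set Function Filter

namespace Crest.Agent.X212.Rw54
open An Sw Gls64
open M (Mf)

variable {κ lam ν : Type} [Fintype κ] [Fintype lam] [Fintype ν] [DecidableEq ν]
  (d : Dt κ lam ν) (X X₁ X₂ : Mf 4) (nc nr n₁ r₁ n₂ r₂ : ℕ)
  (T T₁ T₂ : Type) [NormedAddCommGroup T] [NormedSpace ℝ T] [FiniteDimensional ℝ T]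
  [NormedAddCommGroup T₁] [NormedSpace ℝ T₁] [FiniteDimensional ℝ T₁]
  [NormedAddCommGroup T₂] [NormedSpace ℝ T₂] [FiniteDimensional ℝ T₂]
  [Fintype d.𝓔] (Sl : Type) [Fintype Sl]

/-- GL-SHIFT: at the walls of the ends convergence is stable under small changes of the shifts -/
def ShiftStmt : Prop := All d X X₁ X₂ nc nr n₁ r₁ n₂ r₂ T T₁ T₂ Sl fun _ _ _ σ σ₁ σ₂ p S =>
  p.o ≠ none → ∀ (x : σ₁.Pnt) (z : σ₂.Pnt) (ι : Type) (l : Filter ι) (δ δ' : ι → ℝ × ℝ),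
    Tendsto δ l S.lg → Tendsto δ' l S.lg → Tendsto (fun i => δ i - δ' i) l (𝓝 0) →
    ∀ k, 5 ≤ k → ∀ (y : ι → σ.Pnt) t₁ t₂, S.Nr k l δ' y t₁ t₂ x z → S.Nr k l δ y t₁ t₂ x z

end Crest.Agent.X212.Rw54
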