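import Crest.Agent.X212.Rw54.Defs
import Crest.Agent.X212.Win39.Lv
import Crest.Agent.X212.Pb50.Pt

/-! # Row 212, GL-RW (helper54): calculus of the moments

`hh a b` : the step from `a` to `b`; `Cn a b f` : `hh a b - f` is integrable; `lv K c` : the flattened
level on a neck. -/

set_option autoImplicit false
set_option linter.unusedSectionVars false
noncomputable section
open scoped Manifold ContDiff Topology
open MeasureTheory Set Function Filter

namespace Crest.Agent.X212.Rw54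
open An Sw Sw.En3 Cyf70
open M (Mf pm)
open Nd18 (Dp Jv)
open Real (smoothTransition)

/-! ### steps -/

theorem st_supp (d : ℝ) : support (fun t => smoothTransition (t + d) - smoothTransition t) ⊆
    Ioc (-(|d| + 1)) (|d| + 1) := fun t ht => by
  by_contra h
  have := le_abs_self d
  have := neg_abs_le d
  rcases not_and_or.1 h with h | h
  · exact ht (by simp only [smoothTransition.zero_of_nonpos (x := t + d) (by linarith),
      smoothTransition.zero_of_nonpos (x := t) (by linarith), sub_self])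
  · exact ht (by simp only [smoothTransition.one_of_one_le (x := t + d) (by linarith),
      smoothTransition.one_of_one_le (x := t) (by linarith), sub_self])

theorem st_intg (d : ℝ) : Integrable fun t => smoothTransition (t + d) - smoothTransition t :=
  (integrableOn_iff_integrable_of_support_subset (st_supp d)).1
    ((Continuous.integrableOn_Icc (by fun_prop)).mono_set Ioc_subset_Icc_self)

theorem st_int (d : ℝ) : ∫ t, (smoothTransition (t + d) - smoothTransition t) = d := by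
  have h1 := le_abs_self d
  have h2 := neg_abs_le d
  have i := fun a b => smoothTransition.continuous.intervalIntegrable (μ := volume) a b
  rw [← intervalIntegral.integral_eq_integral_of_support_subset (st_supp d),
    intervalIntegral.integral_sub (Continuous.intervalIntegrable (by fun_prop) _ _) (i _ _),
    intervalIntegral.integral_comp_add_right, intervalIntegral.integral_interval_sub_interval_comm'
      (i _ _) (i _ _) (i _ _), intervalIntegral.integral_congr (g := fun _ => 1) fun t ht => ?_,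
    intervalIntegral.integral_congr (g := fun _ => 0) (b := -(|d| + 1) + d) fun t ht => ?_]
  · simp
  · exact smoothTransition.zero_of_nonpos (ht.2.trans (max_le (by linarith) (by linarith)))
  · exact smoothTransition.one_of_one_le ((le_min (by linarith) (by linarith)).trans ht.1)

/-- the step from `a` to `b` -/
def hh (a b t : ℝ) : ℝ := a + smoothTransition t * (b - a)

/-- `f` goes from `a` to `b` -/
def Cn (a b : ℝ) (f : ℝ → ℝ) : Prop := Integrable fun t => hh a b t - f t

/-- the centre -/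
def cn (a b : ℝ) (f : ℝ → ℝ) : ℝ := ∫ t, (hh a b t - f t)

variable {a b v c d d₁ d₂ : ℝ} {f f₁ f₂ : ℝ → ℝ}

theorem Cn.shift (h : Cn a b f) (c d : ℝ) : Integrable (fun t => hh a b (t - c) - f (t - d)) ∧
    ∫ t, (hh a b (t - c) - f (t - d)) = cn a b f + (d - c) * (b - a) := by
  have e : (fun t => hh a b (t - c) - f (t - d)) = fun t => (fun t => hh a b t - f t +
      (smoothTransition (t + (d - c)) - smoothTransition t) * (b - a)) (t - d) := by
    funext t
    simp only [hh, sub_add_sub_cancel]; ring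
  have i := (st_intg (d - c)).mul_const (b - a)
  rw [e]
  exact ⟨(h.add i).comp_sub_right d, by
    rw [integral_sub_right_eq_self (fun t => hh a b t - f t + (smoothTransition (t + (d - c)) -
      smoothTransition t) * (b - a)), integral_add h i, integral_mul_const, st_int, cn]⟩

/-- the moment of the future -/
theorem mo_true (h : Cn v b f₂) (h₁ : Integrable fun t => smoothTransition (t - c) * (f₁ t - v))
    (e : ∀ t, c < t → f t = f₁ t + f₂ (t - d) - v) (e₂ : ∀ t, t < c + 1 → f₂ (t - d) = v) :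
    ∫ t, smoothTransition (t - c) * (f t - b) =
      (∫ t, smoothTransition (t - c) * (f₁ t - v)) - cn v b f₂ + (v - b) * (d - c) := by
  have e0 : ∀ t, smoothTransition (t - c) * (f t - b) =
      smoothTransition (t - c) * (f₁ t - v) - (hh v b (t - c) - f₂ (t - d)) := fun t => by
    rcases le_or_gt t c with k | k
    · rw [e₂ t (by linarith), hh, smoothTransition.zero_of_nonpos (by linarith)]; ring
    rcases lt_or_ge t (c + 1) with k' | k'
    · rw [e t k, e₂ t k', hh]; ring
    · rw [e t k, hh, smoothTransition.one_of_one_le (by linarith)]; ring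
  simp only [e0]
  rw [integral_sub h₁ (h.shift c d).1, (h.shift c d).2]; ring

/-- the moment of the past -/
theorem mo_false (h : Cn a v f₁)
    (h₂ : Integrable fun t => (1 - smoothTransition (t - c)) * (-1 * (f₂ t - v)))
    (e : ∀ t, t < c + 1 → f t = f₁ (t - d) + f₂ t - v) (e₁ : ∀ t, c < t → f₁ (t - d) = v) :
    ∫ t, (1 - smoothTransition (t - c)) * (-1 * (f t - a)) =
      (∫ t, (1 - smoothTransition (t - c)) * (-1 * (f₂ t - v))) + cn a v f₁ + (a - v) * (c - d) := by
  have e0 : ∀ t, (1 - smoothTransition (t - c)) * (-1 * (f t - a)) =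
      (1 - smoothTransition (t - c)) * (-1 * (f₂ t - v)) + (hh a v (t - c) - f₁ (t - d)) :=
    fun t => by
    rcases le_or_gt (c + 1) t with k | k
    · rw [e₁ t (by linarith), hh, smoothTransition.one_of_one_le (by linarith)]; ring
    rcases lt_or_ge c t with k' | k'
    · rw [e t k, e₁ t k', hh]; ring
    · rw [e t k, hh, smoothTransition.zero_of_nonpos (by linarith)]; ring
  simp only [e0]
  rw [integral_add h₂ (h.shift c d).1, (h.shift c d).2]; ring

/-- the centre of a broken trajectory -/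
theorem cn_add (h₁ : Cn a v f₁) (h₂ : Cn v b f₂) (e : ∀ t, f t = f₁ (t - d₁) + f₂ (t - d₂) - v) :
    cn a b f = cn a v f₁ + cn v b f₂ - (a - v) * d₁ - (v - b) * d₂ := by
  have e0 : ∀ t, hh a b t - f t = hh a v (t - 0) - f₁ (t - d₁) + (hh v b (t - 0) - f₂ (t - d₂)) :=
    fun t => by simp only [e, hh, sub_zero]; ring
  simp only [cn, e0]
  rw [integral_add (h₁.shift 0 d₁).1 (h₂.shift 0 d₂).1, (h₁.shift 0 d₁).2, (h₂.shift 0 d₂).2, cn, cn]
  ring

/-! ### levels on necks -/

variable {κ lam ν : Type} [Fintype κ] [Fintype lam] [Fintype ν] [DecidableEq ν]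
  {e : En3 κ lam ν}

theorem cont_L (H : e.OK) {J : Set ℝ} (hJ : IsOpen J) {c : e.ZC} (hc : e.cyl.AdmOn c (univ ×ˢ J)) :
    ContinuousOn (fun t => L (sl c t)) J := by
  have A : ∀ {N : Type} [NormedAddCommGroup N] [NormedSpace ℝ N] {g : e.Y.M × ℝ → N},
      ContMDiffOn (IC e.Y.I) 𝓘(ℝ, N) ∞ g (univ ×ˢ J) →
      (Continuous fun p : J × e.Y.M => g (p.2, p.1)) ∧ ∀ i, Continuous fun p : J × e.Y.M =>
        e.D.F.D i (fun y => g (y, p.1)) p.2 := fun {N} _ _ g hg => by
    have s := fun p : J × e.Y.M => hg.contMDiffAt (Win39.nh hJ (x := (p.2, p.1)) ⟨trivial, p.1.2⟩)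
    have m : Continuous fun p : J × e.Y.M => (p.2, (p.1 : ℝ)) := by fun_prop
    refine ⟨continuous_iff_continuousAt.2 fun p => (s p).continuousAt.comp_of_eq
      m.continuousAt rfl, fun i => ?_⟩
    rw [show (fun p : J × e.Y.M => e.D.F.D i (fun y => g (y, p.1)) p.2) = fun p =>
      e.D.Z.D (some i) g (p.2, p.1) from funext fun p =>
        (D_some_at e.D.F.toPre ((s p).mdifferentiableAt (by simp)) i).symm]
    exact continuous_iff_continuousAt.2 fun p =>
      (Pb50.sa_D e.D.Z.toPre (s p) (some i)).continuousAt.comp_of_eq m.continuousAt rfl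
  rw [continuousOn_iff_continuous_domRestrict, show J.domRestrict (fun t => L (sl c t)) = fun t : J =>
    Win39.lJ (Win39.jt (sl c t)) from funext fun t => Win39.L_jt H
      (fun k => Win39.sm_sl hJ (hc.sa _) t.2) (Win39.sm_sl hJ hc.sΦ t.2)]
  exact Win39.cont_lJ H ((continuous_pi fun k => (A (hc.sa _)).1).prodMk ((continuous_pi fun i =>
    continuous_pi fun k => (A (hc.sa _)).2 i).prodMk ((A hc.sΦ).1.prodMk
      (continuous_pi (A hc.sΦ).2))))

theorem cont_lb (H : e.OK) {J S : Set ℝ} (hJ : IsOpen J) {c : e.ZC}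
    (hc : e.cyl.AdmOn c (univ ×ˢ J)) (hS : ∀ s ∈ S, Icc (s - 1 / 2) (s + 1 / 2) ⊆ J) :
    ContinuousOn (lb c) S := by
  have c1 : Continuous bp := (smoothTransition.contDiff (n := 1)).continuous_deriv le_rfl
  have : lb c = fun s => ∫ p, bp p * L (sl c (s + projIcc 0 1 zero_le_one p - 1 / 2)) := by
    funext s
    refine congrArg (integral _) (funext fun p => ?_)
    by_cases hp : p ∈ Icc (0 : ℝ) 1
    · rw [projIcc_of_mem _ hp]
    · rw [Pb50.bp_zero hp, zero_mul, zero_mul]
  rw [this]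
  refine continuousOn_integral_of_compact_support (isCompact_Icc (a := (0 : ℝ)) (b := 1))
    ((c1.comp continuous_snd).continuousOn.mul ((cont_L H hJ hc).comp (Continuous.continuousOn
      ((continuous_fst.add (continuous_subtype_val.comp (continuous_projIcc.comp
        continuous_snd))).sub continuous_const)) fun p hp => hS _ hp.1 ?_))
    fun s p _ hp => by rw [Pb50.bp_zero hp, zero_mul]
  have := (projIcc 0 1 zero_le_one p.2).2
  exact ⟨by linarith [this.1], by linarith [this.2]⟩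

theorem lb_shift {c c' : e.ZC} {s δ : ℝ}
    (h : ∀ t ∈ Icc (s - 1 / 2) (s + 1 / 2), sl c' (t + δ) = sl c t) : lb c' (s + δ) = lb c s := by
  refine congrArg (integral _) (funext fun p => ?_)
  by_cases hp : p ∈ Icc (0 : ℝ) 1
  · beta_reduce
    rw [← h (s + p - 1 / 2) ⟨by linarith [hp.1], by linarith [hp.2]⟩]
    congr 3; ring
  · rw [Pb50.bp_zero hp, zero_mul, zero_mul]

variable {X : Mf 4} {nc : ℕ} {B : Bg X.I X.M κ lam ν nc} (K : Nk e B) {c : Cfg X.M κ ν} {s : Bool}

/-- the flattened level -/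
def lv (c : Cfg X.M κ ν) (t : ℝ) : ℝ := e.ψ (lb (K.pb c) t)

/-- the integrand of the moment -/
def mi (s : Bool) (r : ℝ) (c : Cfg X.M κ ν) (t : ℝ) : ℝ := K.β s t * (pm s * (lv K c t - e.ψ r))

theorem mo_eq (s : Bool) (r : ℝ) (c : Cfg X.M κ ν) : K.mo s r c = ∫ t, mi K s r c t := rfl

theorem cont_lv (H : e.OK) (hc : e.cyl.AdmOn (K.pb c) (univ ×ˢ K.J)) :
    ContinuousOn (lv K c) (Dp K.p K.q 1) :=
  H.sψ.continuous.comp_continuousOn (cont_lb H Nd18.isOpen_Jv hc
    fun _ hs _ ht => Pb50.half_J K hs ht)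

theorem β_dp (hs : K.Inf s) {t : ℝ} (h : K.β s t ≠ 0) : t ∈ Dp K.p K.q 3 := by
  cases s
  · have hp : K.p = none := hs
    refine ⟨by simp [hp], fun a ha => not_lt.1 fun k => h ?_⟩
    simp only [Nk.β, Option.mem_def.1 ha, Option.getD_some, Bool.false_eq_true, if_false]
    rw [smoothTransition.one_of_one_le (by linarith), sub_self]
  · have hq : K.q = none := hs
    refine ⟨fun a ha => not_lt.1 fun k => h ?_, by simp [hq]⟩
    simp only [Nk.β, Option.mem_def.1 ha, Option.getD_some, if_true]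
    exact smoothTransition.zero_of_nonpos (by linarith)

theorem cont_β (s : Bool) : Continuous (K.β s) := by
  cases s <;> (unfold Nk.β; simp only [Bool.false_eq_true, if_false, if_true]; fun_prop)

theorem int_mi (H : e.OK) (hs : K.Inf s) (hc : e.cyl.AdmOn (K.pb c) (univ ×ˢ K.J)) {r a : ℝ}
    (h : ∀ t ∈ K.J, a ≤ pm s * t → lv K c t = e.ψ r) : Integrable (mi K s r c) := by
  obtain ⟨R, hR⟩ : ∃ R, ∀ t, K.β s t ≠ 0 → -R ≤ pm s * t := by
    cases s
    · refine ⟨K.q.getD 4 - 3, fun t ht => not_lt.1 fun k => ht ?_⟩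
      simp only [Nk.β, pm, Bool.false_eq_true, if_false] at k ⊢
      rw [smoothTransition.one_of_one_le (by linarith), sub_self]
    · refine ⟨-(K.p.getD (-3) + 3), fun t ht => not_lt.1 fun k => ht ?_⟩
      simp only [Nk.β, pm, if_true] at k ⊢
      exact smoothTransition.zero_of_nonpos (by linarith)
  have hc' : IsCompact (Dp K.p K.q 1 ∩ Icc (-(|R| + |a|)) (|R| + |a|)) :=
    isCompact_Icc.inter_left Nd18.isClosed_Dp
  refine (integrableOn_iff_integrable_of_support_subset fun t ht => ?_).1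
    (ContinuousOn.integrableOn_compact hc' ((cont_β K s).continuousOn.mul (continuousOn_const.mul
      (((cont_lv K H hc).mono inter_subset_left).sub continuousOn_const))))
  have h1 := left_ne_zero_of_mul ht
  have h2 := Nd18.Dp_mono (d := 1) (by norm_num) (β_dp K hs h1)
  have h3 : pm s * t < a := not_le.1 fun k => ht (by
    rw [mi, h t (Nd18.Dp_sub one_pos h2) k, sub_self, mul_zero, mul_zero])
  have h4 := hR t h1
  refine ⟨h2, abs_le.1 ?_⟩
  rw [show |t| = |pm s * t| by cases s <;> simp [pm]]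
  exact abs_le.2 ⟨by linarith [le_abs_self R, abs_nonneg a], by linarith [le_abs_self a, abs_nonneg R]⟩

/-- the centre on a cylinder -/
theorem cn_eq (hp : K.p = none) (hq : K.q = none) {r r' : ℝ} (h : Integrable (mi K false r c))
    (h' : Integrable (mi K true r' c)) : Cn (e.ψ r) (e.ψ r') (lv K c) ∧
      K.mo false r c - K.mo true r' c = cn (e.ψ r) (e.ψ r') (lv K c) := by
  have e0 : (fun t => hh (e.ψ r) (e.ψ r') t - lv K c t) =
      fun t => mi K false r c t - mi K true r' c t := funext fun t => by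
    simp [mi, Nk.β, hh, hp, hq, pm]; ring
  exact ⟨by rw [Cn, e0]; exact h.sub h', by rw [cn, e0, integral_sub h h']; rfl⟩

theorem mo_congr (hs : K.Inf s) {c' : Cfg X.M κ ν} (h : ∀ t ∈ Dp K.p K.q 1, lv K c t = lv K c' t)
    (r : ℝ) : K.mo s r c = K.mo s r c' := by
  refine congrArg (integral _) (funext fun t => (?_ : mi K s r c t = mi K s r c' t))
  by_cases k : K.β s t = 0
  · rw [mi, mi, k, zero_mul, zero_mul]
  · rw [mi, mi, h t (Nd18.Dp_mono (d := 1) (by norm_num) (β_dp K hs k))]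

theorem ht_le (hs : K.Inf s) {t : ℝ} (ht : t ∈ K.J) (y : e.Y.M) :
    Gls64.ht K s (K.ψ (y, t)) ≤ pm s * t := by
  have f0 : ∀ x, 0 < x → 0 ≤ Nd18.fl x := fun x hx =>
    mul_nonneg hx.le (sub_nonneg.2 (smoothTransition.le_one _))
  rw [Gls64.ht, Nd18.Nk.τ, K.tm_ψ _ (Pb50.src K ht y), Nd18.tf]
  cases s
  · rw [show K.p = none from hs]
    cases hq : K.q with
    | none => simp
    | some a => simpa [pm] using f0 _ (sub_pos.2 (ht.2 a hq))
  · rw [show K.q = none from hs]
    cases hp : K.p with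
    | none => simp
    | some a => simpa [pm] using f0 _ (sub_pos.2 (ht.1 a hp))

/-- agreement along a shift of necks -/
theorem lv_half {X' : Mf 4} {nc' : ℕ} {B' : Bg X'.I X'.M κ lam ν nc'} {K' : Nk e B'}
    (hs : K'.Inf s) {φ : X'.M → X.M} {δ A t : ℝ} {c' : Cfg X'.M κ ν}
    (hψ : ∀ y t, t ∈ K'.J → t + δ ∈ K.J → φ (K'.ψ (y, t)) = K.ψ (y, t + δ))
    (ag : Gls64.Ag φ {x | Gls64.ht K' s x < A} c c') (h' : t ∈ Dp K'.p K'.q 1)
    (h : t + δ ∈ Dp K.p K.q 1) (hA : pm s * t + 1 ≤ A) : lv K c (t + δ) = lv K' c' t := by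
  refine congrArg e.ψ (lb_shift fun u hu => ?_)
  have h1 := Pb50.half_J K' h' hu
  have h2 := Pb50.half_J K h (t := u + δ) ⟨by linarith [hu.1], by linarith [hu.2]⟩
  have h3 : pm s * u < A := by
    cases s <;> simp only [pm, Bool.false_eq_true, if_false, if_true] at hA ⊢ <;>
      linarith [hu.1, hu.2]
  have h4 := fun y => ag _ ((ht_le K' hs h1 y).trans_lt h3)
  simp only [hψ _ _ h1 h2] at h4
  exact YC.ext (funext₂ fun k y => (h4 y).1 _) (funext fun y => (h4 y).2)

/-- the level is `v` beyond `a` -/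
def Fl (s : Bool) (a v : ℝ) (c : Cfg X.M κ ν) : Prop := ∀ t ∈ K.J, a ≤ pm s * t → lv K c t = v

theorem lv_flat (hs : K.Inf s) {a a' v : ℝ} (ha : a ≤ a') {c' : Cfg X.M κ ν} (h : Fl K s a v c)
    (h' : Fl K s a v c') (ag : Gls64.Ag id {x | Gls64.ht K s x < a' + 2} c c') :
    ∀ t ∈ Dp K.p K.q 1, lv K c t = lv K c' t := fun t ht => by
  rcases le_total (pm s * t) a' with k | k
  · simpa using lv_half K hs (δ := 0) (by simp) ag ht (by simpa) (by linarith)
  · rw [h t (Nd18.Dp_sub one_pos ht) (ha.trans k), h' t (Nd18.Dp_sub one_pos ht) (ha.trans k)]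

/-- the level on a long neck -/
theorem lv_split {X₁ X₂ : Mf 4} {n₁ n₂ : ℕ} {B₁ : Bg X₁.I X₁.M κ lam ν n₁} {K₁ : Nk e B₁}
    {B₂ : Bg X₂.I X₂.M κ lam ν n₂} {K₂ : Nk e B₂} (h₁ : K₁.Inf true) (h₂ : K₂.Inf false)
    {φ₁ : X₁.M → X.M} {φ₂ : X₂.M → X.M} {δ₁ δ₂ a v : ℝ} {c₁ : Cfg X₁.M κ ν} {c₂ : Cfg X₂.M κ ν}
    (hp : K.p = K₁.p.map (· + δ₁)) (hq : K.q = K₂.q.map (· + δ₂))
    (ψ₁ : ∀ y t, t ∈ K₁.J → t + δ₁ ∈ K.J → φ₁ (K₁.ψ (y, t)) = K.ψ (y, t + δ₁))
    (ψ₂ : ∀ y t, t ∈ K₂.J → t + δ₂ ∈ K.J → φ₂ (K₂.ψ (y, t)) = K.ψ (y, t + δ₂))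
    (a₁ : Gls64.Ag φ₁ {x | Gls64.ht K₁ true x < 2 * ((δ₂ - δ₁) / 4) + 2} c c₁)
    (a₂ : Gls64.Ag φ₂ {x | Gls64.ht K₂ false x < 2 * ((δ₂ - δ₁) / 4) + 2} c c₂)
    (f₁ : Fl K₁ true a v c₁) (f₂ : Fl K₂ false a v c₂)
    (hl : |a| + |K₁.p.getD 0| + |K₂.q.getD 0| < (δ₂ - δ₁) / 2) :
    ∀ u ∈ Dp K.p K.q 1, lv K c u = lv K₁ c₁ (u - δ₁) + lv K₂ c₂ (u - δ₂) - v := fun u hu => by
  have q₁ : K₁.q = none := h₁
  have p₂ : K₂.p = none := h₂
  have b1 := le_abs_self a
  have b2 := abs_nonneg a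
  have b3 := abs_nonneg (K₁.p.getD 0)
  have b4 := abs_nonneg (K₂.q.getD 0)
  rcases le_total (u - δ₁) ((δ₂ - δ₁) / 2) with k | k
  · rw [f₂ _ ⟨by simp [p₂], fun b hb => ?_⟩ (by simp only [pm]; norm_num; linarith),
      add_sub_cancel_right, ← lv_half K h₁ ψ₁ a₁ ⟨fun b hb => ?_, by simp [q₁]⟩ (by simpa)
        (by simp only [pm]; norm_num; linarith), sub_add_cancel]
    · linarith [hu.1 _ (hp ▸ Option.mem_map.2 ⟨b, hb, rfl⟩)]
    · rw [Option.mem_def.1 hb, Option.getD_some] at hl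
      linarith [neg_abs_le b]
  · rw [f₁ _ ⟨fun b hb => ?_, by simp [q₁]⟩ (by simp only [pm]; norm_num; linarith),
      add_sub_cancel_left, ← lv_half K h₂ ψ₂ a₂ ⟨by simp [p₂], fun b hb => ?_⟩ (by simpa)
        (by simp only [pm]; norm_num; linarith), sub_add_cancel]
    · linarith [hu.2 _ (hq ▸ Option.mem_map.2 ⟨b, hb, rfl⟩)]
    · rw [Option.mem_def.1 hb, Option.getD_some] at hl
      linarith [le_abs_self b]

theorem psi_lt (hg : ∃ g : e.Gen, g.OK) {v v' : e.YC} (h : Gd v) (h' : Gd v') (l : L v < L v') :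
    e.ψ (L v) < e.ψ (L v') := by
  obtain ⟨g, hg⟩ := hg
  obtain ⟨o, ho⟩ := hg.all v h.crit
  obtain ⟨o', ho'⟩ := hg.all v' h'.crit
  rw [h.inv _ _ (hg.crit o).1 ho, h.inv _ _ (hg.crit o').1 ho'] at l ⊢
  exact hg.sep o o' l

end Crest.Agent.X212.Rw54
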