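import Crest.Agent.X212.Rw54.Mom
import Crest.Agent.X212.Sw21.Fac

/-! # Row 212, GL-RW (helper54): invariant functions, rows given by a moment -/

set_option autoImplicit false
set_option linter.unusedSectionVars false
noncomputable section
open scoped Manifold ContDiff Topology
open MeasureTheory Set Function Filter

namespace Crest.Agent.X212.Rw54
open An Sw Sw.En3 Gls64 Sw21
open M (Mf pm)
open Nd18 (Dp Jv)

variable {κ lam ν : Type} [Fintype κ] [Fintype lam] [Fintype ν] [DecidableEq ν]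
  {d : Dt κ lam ν} {N : Type} [Fintype N] {ty : N → d.𝓔} {X X₁ X₂ : Mf 4}
  {nc nr n₁ r₁ n₂ r₂ m : ℕ}
  {T T₁ T₂ : Type} [NormedAddCommGroup T] [NormedSpace ℝ T] [FiniteDimensional ℝ T]
  [NormedAddCommGroup T₁] [NormedSpace ℝ T₁] [FiniteDimensional ℝ T₁]
  [NormedAddCommGroup T₂] [NormedSpace ℝ T₂] [FiniteDimensional ℝ T₂]
  {s : Pz X 0 fun i => d.e (ty i)} {s₁ : Pz X₁ 0 fun i => d.e (ty i)}
  {s₂ : Pz X₂ 0 fun i => d.e (ty i)}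
  {σ : Cel s nc nr T} {σ₁ : Cel s₁ n₁ r₁ T₁} {σ₂ : Cel s₂ n₂ r₂ T₂}
  {g f : T → Cfg X.M κ ν → ℝ} {φ : ℝ → ℝ} {k : ℕ} {ι : Type} {l : Filter ι}

theorem repR_comp {F : σ.C k → ℝ} (h : σ.RepR g F) (hφ : ContDiff ℝ ∞ φ) :
    σ.RepR (fun t c => φ (g t c)) fun v => φ (F v) :=
  ⟨hφ.comp_contDiffOn h.1, fun y => congrArg φ (h.2 y)⟩

theorem fn_comp (h : σ.Fn g) (hφ : ContDiff ℝ ∞ φ) : σ.Fn fun t c => φ (g t c) :=
  ⟨fun k hk => (h.1 k hk).elim fun _ hF => ⟨_, repR_comp hF hφ⟩,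
    fun y y' e e' => congrArg φ (h.2 y y' e e')⟩

theorem fn_const (a : ℝ) : σ.Fn fun _ _ => a :=
  ⟨fun _ _ => ⟨fun _ => a, contDiffOn_const, fun _ => rfl⟩, fun _ _ _ _ => rfl⟩

theorem dk_mono {i j : ℕ} (h : i ≤ j) (y y' : σ.Pnt) : σ.dk i y y' ≤ σ.dk j y y' :=
  add_le_add (add_le_add (Sob92.nrm_mono h _) (Sob92.nrm_mono h _)) le_rfl

theorem dk_self (h : σ.OK) (y : σ.Pnt) : σ.dk 5 y y ≤ 0 := by
  simpa using Pb50.dk_le_norm h.toOK (cr_of_gd h.gd) (k := 4) (by omega) y y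

theorem fn_lim (h : σ.OK) (hg : σ.Fn g) {y : ι → σ.Pnt} {x : σ.Pnt}
    (hy : Tendsto (fun i => σ.dk 8 (y i) x) l (𝓝 0)) :
    Tendsto (fun i => g (y i).1.1 (y i).1.2) l (𝓝 (g x.1.1 x.1.2)) := by
  obtain ⟨F, hF⟩ := hg.1 7 le_rfl
  simp only [← hF.2]
  exact (hF.1.continuousOn.continuousAt (U_nhds h.toOK 7 x)).tendsto.comp
    (tendsto_iff_norm_sub_tendsto_zero.2 (squeeze_zero (fun _ => norm_nonneg _)
      (fun i => Pb50.norm_le_dk h.toOK (cr_of_gd h.gd) (by omega) _ _) hy))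

theorem near_of {y : ι → σ.Pnt} {x : σ.Pnt} (hy : Tendsto (fun i => σ.dk 8 (y i) x) l (𝓝 0))
    {η : ℝ} (hη : 0 < η) : ∀ᶠ i in l, σ.dk 5 (y i) x ≤ η :=
  (hy.eventually_le_const hη).mono fun _ hi => (dk_mono (by omega) _ _).trans hi

theorem fderiv_rr (h : σ.OK) (hk : 7 ≤ k) {F : σ.C k → ℝ} (hF : σ.RepR g F) (y : σ.Pnt) :
    fderiv ℝ (σ.rr k g) (σ.pt k y) = fderiv ℝ F (σ.pt k y) :=
  ((repR_eqOn (Pb50.dense_pt h.toOK (cr_of_gd h.gd) (by omega)) (repR_rr hF) hF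
    ).eventuallyEq_of_mem (U_nhds h.toOK k y)).fderiv_eq

theorem fderiv_comp (h : σ.OK) (hk : 7 ≤ k) (hg : σ.Fn g) (hφ : ContDiff ℝ ∞ φ) (y : σ.Pnt)
    (v : σ.C k) : fderiv ℝ (σ.rr k fun t c => φ (g t c)) (σ.pt k y) v =
      deriv φ (g y.1.1 y.1.2) * fderiv ℝ (σ.rr k g) (σ.pt k y) v := by
  obtain ⟨F, hF⟩ := hg.1 k hk
  have := (hφ.differentiable (by simp) _).hasDerivAt.comp_hasFDerivAt (σ.pt k y)
    ((hF.1.contDiffAt (U_nhds h.toOK k y)).differentiableAt (by simp)).hasFDerivAt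
  rw [fderiv_rr h hk (repR_comp hF hφ), fderiv_rr h hk hF, ← hF.2]
  exact DFunLike.congr_fun this.fderiv v

variable {i : N} {K : Nk (d.e (ty i)) s.bg} {b : Bool}

theorem admOn_site (h : σ.toFam.OK) (hK : K ∈ s.nk i) (y : σ.Pnt) :
    (d.e (ty i)).cyl.AdmOn (K.pb y.1.2) (univ ×ˢ K.J) := by
  obtain ⟨K', -, k⟩ := h.en _ y.2.1 i K hK
  have := Pb50.admOn_pb K' y.2.2.1
  rwa [Nk.pb, Nd18.Nk.J, Pb50.ng_ψ k, Pb50.ng_p k, Pb50.ng_q k] at this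

theorem mo_site (hK : K ∈ s.nk i) (β : BCs fun i => d.e (ty i)) (c : Cfg X.M κ ν) :
    s.mo β i b c = K.mo b (L (β i b)) c := by
  rw [Pz.mo, Option.mem_def.1 hK]; rfl

variable (hF : FlatStmt d ty X nc nr T) (h : σ.OK) (hK : K ∈ s.nk i)
include hF h hK

theorem int_site (hb : K.Inf b) (y : σ.Pnt) : Integrable (mi K b (L (σ.β i b)) y.1.2) :=
  let ⟨_, h0, _, k⟩ := hF s σ h i b K hK hb y
  int_mi K (h.site.en i) hb (admOn_site h.toOK hK y) (k y ((dk_self h y).trans h0.le))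

theorem cn_site (hp : K.p = none) (hq : K.q = none) (y : σ.Pnt) :
    Cn ((d.e (ty i)).ψ (L (σ.β i false))) ((d.e (ty i)).ψ (L (σ.β i true))) (lv K y.1.2) ∧
      s.mo σ.β i false y.1.2 - s.mo σ.β i true y.1.2 =
        cn ((d.e (ty i)).ψ (L (σ.β i false))) ((d.e (ty i)).ψ (L (σ.β i true))) (lv K y.1.2) := by
  rw [mo_site hK, mo_site hK]
  exact cn_eq K hp hq (int_site hF h hK (b := false) hp y) (int_site hF h hK (b := true) hq y)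

omit hF h

theorem flat_mo (hb : K.Inf b) {x : σ.Pnt} {η a v : ℝ}
    (hv : ∀ y : σ.Pnt, σ.dk 5 y x ≤ η → Fl K b a v y.1.2) {F : T → Cfg X.M κ ν → Fin m → ℝ}
    {G : (Bool → ℝ) → Fin m → ℝ} {B : Set Bool} (hB : ∀ b ∈ B, K.Inf b)
    (hG : ∀ u u' : Bool → ℝ, EqOn u u' B → G u = G u')
    (e : ∀ t c, F t c = G fun b => s.mo σ.β i b c) : ∀ᶠ a' in atTop, Flat σ (ht K b) x F a' η :=
  (eventually_ge_atTop a).mono fun _ ha y y' _ h1 h2 ag => by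
    rw [e, e]
    exact hG _ _ fun b' hb' => by
      simp only [mo_site hK]
      exact mo_congr K (hB b' hb') (lv_flat K hb ha (hv y h1) (hv y' h2) ag) _

omit hK

/-! ### rows and shifts -/

variable {S : Sp X X₁ X₂ nc n₁ n₂ T T₁ T₂} {x : σ₁.Pnt} {z : σ₂.Pnt} {δ δ' : ι → ℝ × ℝ}
  {y : ι → σ.Pnt} {t₁ : ι → T₁} {t₂ : ι → T₂}

theorem nr_swap (h : S.Nr k l δ y t₁ t₂ x z) : S.swap.Nr k l δ y t₂ t₁ z x :=
  ⟨h.t, h.l₂, h.l₁, h.c₂, h.c₁⟩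

theorem nr_unswap (h : S.swap.Nr k l δ y t₂ t₁ z x) : S.Nr k l δ y t₁ t₂ x z :=
  ⟨h.t, h.l₂, h.l₁, h.c₂, h.c₁⟩

theorem nr_congr (e : δ' =ᶠ[l] δ) (h : S.Nr k l δ' y t₁ t₂ x z) : S.Nr k l δ y t₁ t₂ x z :=
  ⟨(h.t.and e).mono fun _ hi => hi.2 ▸ hi.1, h.l₁, h.l₂,
    fun w hw => (h.c₁ w hw).congr' (e.mono fun _ hi => by simp only [hi]),
    fun w hw => (h.c₂ w hw).congr' (e.mono fun _ hi => by simp only [hi])⟩

theorem agr_unswap {δ : ℝ × ℝ} {a : ℝ} {y : σ.Pnt} {y₁ : σ₁.Pnt} {y₂ : σ₂.Pnt}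
    (h : S.swap.Agr δ a y y₂ y₁) : S.Agr δ a y y₁ y₂ := ⟨h.1, h.2.2, h.2.1⟩

theorem lg_iff : Tendsto δ l S.lg ↔ Tendsto (fun i => S.Λ (δ i)) l atTop ∧ ∀ᶠ i in l, δ i ∈ S.Δ := by
  rw [Sp.lg, tendsto_inf, tendsto_comap_iff, tendsto_principal]; rfl

theorem ev_lg {P : ℝ × ℝ → Prop} (a : ℝ) (h : ∀ δ ∈ S.Δ, a ≤ S.Λ δ → P δ) : ∀ᶠ δ in S.lg, P δ :=
  ((lg_iff.1 tendsto_id).2.and ((lg_iff.1 tendsto_id).1.eventually_ge_atTop a)).mono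
    fun _ k => h _ k.1 k.2

theorem sq_of {R : Rw κ ν X X₁ nr r₁ r₂ m T T₁} (hR : R.OK S σ x z f) (h₁ : σ₁.OK) (h₂ : σ₂.OK)
    (hx : σ₁.R x.1.1 x.1.2 = 0) (hz : σ₂.R z.1.1 z.1.2 = 0) {y₁ : ι → σ₁.Pnt} {y₂ : ι → σ₂.Pnt}
    (hδ : Tendsto δ l S.lg) (l₁ : Tendsto (fun i => σ₁.dk 8 (y₁ i) x) l (𝓝 0))
    (l₂ : Tendsto (fun i => σ₂.dk 8 (y₂ i) z) l (𝓝 0)) (e : ∀ᶠ i in l, σ.R (y i).1.1 (y i).1.2 = 0 ∧
      S.Agr (δ i) (2 * S.Λ (δ i) + 2) (y i) (y₁ i) (y₂ i))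
    (hA : ∀ᶠ i in l, (δ i, f (y i).1.1 (y i).1.2) ∈ R.A) :
    R.Sq S l δ fun i => f (y i).1.1 (y i).1.2 := by
  obtain ⟨η, hη, -, hr⟩ := hR.row
  have a1 := tendsto_pi_nhds.2 fun j => fn_lim h₁ (h₁.R j) l₁
  have a2 := tendsto_pi_nhds.2 fun j => fn_lim h₂ (h₂.R j) l₂
  have a3 := tendsto_pi_nhds.2 fun j => fn_lim h₁ (hR.fμ j) l₁
  have a4 := (a1.prodMk_nhds ((a2.add a3).sub_const (R.μ x.1.1 x.1.2))).neg
  refine ⟨hδ, hA, (a4.congr' ?_).trans (le_of_eq (congrArg 𝓝 ?_))⟩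
  · filter_upwards [hδ.eventually hr, hδ.eventually hR.lev, hA, e, near_of l₁ hη, near_of l₂ hη]
      with i b1 b2 b3 b4 b5 b6
    have := b1 _ b3 _ _ _ b5 b6 b4.2
    rw [b4.1, (b2 _ b3 _ _ (y₁ i).2.1 _ (y₂ i).2.1 b4.2.1).2 rfl, Prod.mk_zero_zero, map_zero]
      at this
    exact neg_eq_of_add_eq_zero_right this.symm
  · rw [neg_eq_zero]
    exact Prod.ext hx (by simpa using hz)

/-- the moment at the level `τ` of the wall function -/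
def lm (τ : ℝ) : ℝ := -Real.log (1 - τ)

theorem lm_iff {τ a : ℝ} (h : τ < 1) : a - lm τ = 0 ↔ 1 - Real.exp (-a) = τ := by
  rw [lm, sub_neg_eq_add, add_eq_zero_iff_neg_eq, sub_eq_iff_comm]
  exact ⟨fun e => by rw [e, Real.exp_log (sub_pos.2 h)], fun e => by rw [e, Real.log_exp]⟩

theorem lm_lim : Tendsto lm (𝓝[<] 1) atTop := by
  refine tendsto_neg_atBot_atTop.comp (Real.tendsto_log_nhdsGT_zero.comp
    (tendsto_nhdsWithin_iff.2 ⟨?_, eventually_nhdsWithin_of_forall fun t ht =>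
      mem_Ioi.2 (sub_pos.2 ht)⟩))
  exact ((continuous_sub_left (1 : ℝ)).tendsto' 1 0 (sub_self _)).mono_left nhdsWithin_le_nhds

theorem wf_lt (a : ℝ) : 1 - Real.exp (-a) < 1 := sub_lt_self _ (Real.exp_pos _)

theorem sm_wf : ContDiff ℝ ∞ fun a : ℝ => 1 - Real.exp (-a) := by fun_prop

/-- the row `g - lm τ` -/
def mRw (g : T → Cfg X.M κ ν → ℝ) (μ : T₁ → Cfg X₁.M κ ν → Fin r₂ → ℝ)
    (Lr : ((Fin nr → ℝ) × (Fin 1 → ℝ)) ≃L[ℝ] ((Fin r₁ → ℝ) × (Fin r₂ → ℝ)))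
    (off : ℝ × ℝ → ℝ → (Fin r₁ → ℝ) × (Fin r₂ → ℝ)) (A : Set (ℝ × ℝ)) :
    Rw κ ν X X₁ nr r₁ r₂ 1 T T₁ :=
  ⟨fun τ t c _ => g t c - lm τ, μ, Lr, off, A ×ˢ Iio 1⟩

theorem mRw_ok {μ : T₁ → Cfg X₁.M κ ν → Fin r₂ → ℝ} {Lr off} {A : Set (ℝ × ℝ)} (h : σ.OK)
    (dim : Module.finrank ℝ T₁ + Module.finrank ℝ T₂ = Module.finrank ℝ T) (hg : σ.Fn g)
    (hμ : ∀ j, σ₁.Fn fun t c => μ t c j) {η : ℝ} (hη : 0 < η)
    (fl : ∀ᶠ a in atTop, Flat σ₁ S.g₁ x σ₁.R a η ∧ Flat σ₁ S.g₁ x μ a η ∧ Flat σ₂ S.g₂ z σ₂.R a η)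
    (row : ∀ᶠ δ in S.lg, δ ∈ A → ∀ τ (y : σ.Pnt) y₁ y₂, σ₁.dk 5 y₁ x ≤ η → σ₂.dk 5 y₂ z ≤ η →
      S.Agr δ (2 * S.Λ δ + 2) y y₁ y₂ → Lr (σ.R y.1.1 y.1.2, fun _ => g y.1.1 y.1.2 - lm τ) =
        (σ₁.R y₁.1.1 y₁.1.2, σ₂.R y₂.1.1 y₂.1.2 + μ y₁.1.1 y₁.1.2 - μ x.1.1 x.1.2) + off δ τ) :
    (mRw g μ Lr off A).OK S σ x z fun t c => 1 - Real.exp (-g t c) where
  dim := by rw [dim]
  fρ τ _ := fn_comp (φ := fun a => a - lm τ) hg (by fun_prop)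
  fμ := hμ
  ff := fn_comp (φ := fun a => 1 - Real.exp (-a)) hg sm_wf
  row := ⟨η, hη, fl, row.mono fun _ k τ a => k a.1 τ⟩
  lev := .of_forall fun _ τ a y _ _ _ _ _ =>
    (funext_iff.trans Unique.forall_iff).trans (lm_iff a.2)
  trv k hk := .of_forall fun δ τ _ q y _ _ _ _ _ ho ⟨u, r⟩ => by
    have c : ContDiff ℝ ∞ fun a : ℝ => 1 - Real.exp (-(a + lm τ)) := by fun_prop
    have e := fderiv_comp h hk (fn_comp (φ := fun a => a - lm τ) hg (by fun_prop)) c y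
    have d : deriv (fun a : ℝ => 1 - Real.exp (-(a + lm τ))) (g y.1.1 y.1.2 - lm τ) =
        Real.exp (-g y.1.1 y.1.2) := by
      simpa using (((hasDerivAt_id (g y.1.1 y.1.2 - lm τ)).add_const (lm τ)).neg.exp.const_sub
        1).deriv
    simp only [sub_add_cancel, d] at e
    obtain ⟨v, -, h1, h2⟩ := ho u fun _ => r / Real.exp (-g y.1.1 y.1.2)
    exact ⟨v, Prod.ext h1 ((e v).trans ((congrArg _ (h2 0)).trans
      (mul_div_cancel₀ _ (Real.exp_ne_zero _))))⟩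

end Crest.Agent.X212.Rw54
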